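import Vale.Agent.P280B30.Rows
import Vale.Agent.P280C59.Cov
import Mathlib.Analysis.Calculus.InverseFunctionTheorem.ContDiff

/-!
# P280L59: the row `LIFT`
-/

open scoped Manifold ContDiff Topology
open Filter MvPolynomial
open Vale.Agent.P272.K Vale.Agent.P300.Final Vale.Agent.P299G40
open Vale.Agent.P009.AV (aff)

noncomputable section

namespace Vale.Agent.P280A

open C59

theorem lift59_inv {n N : ℕ} {X : Type} [TopologicalSpace X] [ChartedSpace (Cm n) X]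
    [IsManifold 𝓘(ℂ, Cm n) ω X] {Φ : X → PN N} (hΦ : IsProjectiveImmersion (Cm n) Φ)
    {e : Chart n X} {x : X} (he : At e x) {i : Fin (N + 1)} (hi : (Φ x).rep i ≠ 0) :
    ∃ k : (Fin (N + 1) → ℂ) → Cm n, AnalyticAt ℂ k (aff i (Φ x)) ∧
      ∀ᶠ y in 𝓝 x, k (aff i (Φ y)) = e y := by
  have L := lift_aff hΦ i
  have g1 := L.holo x hi e he
  obtain ⟨g, hg⟩ : ∃ g, g = fun z => aff i (Φ (e.symm z)) := ⟨_, rfl⟩
  obtain ⟨R, hR⟩ := (fderiv ℂ g (e x)).toLinearMap.exists_leftInverse_of_injective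
    (LinearMap.ker_eq_bot'.2 fun v hv =>
      L.imm x hi e he v 0 (by rw [← hg, zero_smul]; exact hv))
  rw [← hg] at g1
  obtain ⟨R', hR'⟩ : ∃ R' : (Fin (N + 1) → ℂ) →L[ℂ] Cm n, ∀ v, R' v = R v :=
    ⟨LinearMap.toContinuousLinearMap R, fun _ => rfl⟩
  have k1 : ContDiffAt ℂ ω (R' ∘ g) (e x) := R'.contDiff.contDiffAt.comp _ g1
  have k2 : HasFDerivAt (R' ∘ g) (ContinuousLinearEquiv.refl ℂ (Cm n) : Cm n →L[ℂ] Cm n) (e x) :=
    (R'.hasFDerivAt.comp _ (g1.differentiableAt (by simp)).hasFDerivAt).congr_fderiv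
      (ContinuousLinearMap.ext fun v => (hR' _).trans (LinearMap.congr_fun hR v))
  have k3 := (k1.to_localInverse k2 (by simp)).analyticAt
  have k4 := (k1.hasStrictFDerivAt' k2 (by simp)).eventually_left_inverse
  refine ⟨k1.localInverse k2 (by simp) ∘ R', k3.comp_of_eq (R'.analyticAt _) ?_, ?_⟩
  · rw [Function.comp_apply, hg]
    simp only [e.left_inv he.2]
  · filter_upwards [e.open_source.mem_nhds he.2, (e.continuousAt he.2).tendsto.eventually k4]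
      with y h1 h2
    have h3 : aff i (Φ y) = g (e y) := by
      rw [hg]
      simp only [e.left_inv h1]
    rw [h3]
    exact h2

theorem lift59_cont {n N : ℕ} {X : Type} [TopologicalSpace X] [ChartedSpace (Cm n) X]
    [IsManifold 𝓘(ℂ, Cm n) ω X] {Φ : X → PN N} (hΦ : IsProjectiveImmersion (Cm n) Φ)
    {S : Type} [TopologicalSpace S] [ChartedSpace (Cm 1) S] {φ : S → X} {p : S}
    {s : S → Fin (N + 1) → ℂ} (hs : An s p)
    (hev : ∀ᶠ c in 𝓝 p, ∃ h : s c ≠ 0, Φ (φ c) = Projectivization.mk ℂ (s c) h)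
    [CompactSpace X] (inj : Function.Injective Φ) : ContinuousAt φ p := by
  have cont : ∀ x, ContinuousAt (fun y => aff (idx (Φ x)) (Φ y)) x := fun x => by
    have := ((lift_aff hΦ _).holo x (idx_ne _) _ (at_chart x)).continuousAt.comp
      ((chartAt (Cm n) x).continuousAt (mem_chart_source _ x))
    refine this.congr ?_
    filter_upwards [(chartAt (Cm n) x).open_source.mem_nhds (mem_chart_source _ x)] with z hz
    exact congrArg (fun y => aff _ (Φ y)) ((chartAt (Cm n) x).left_inv hz)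
  refine isCompact_univ.tendsto_nhds_of_unique_mapClusterPt (Eventually.of_forall fun _ => trivial)
    fun x _ hx => inj ?_
  obtain ⟨U, hU, hx⟩ := mapClusterPt_iff_ultrafilter.1 hx
  have t1 := (cont x).tendsto.comp hx
  have t2 := hs.cont.tendsto.mono_left hU
  have t3 := (((continuous_apply (idx (Φ x))).tendsto _).comp t2).smul t1
  have e1 : s p (idx (Φ x)) • aff (idx (Φ x)) (Φ x) = s p := by
    refine tendsto_nhds_unique_of_eventuallyEq t3 t2 ?_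
    filter_upwards [hU hev, hx ((lift_aff hΦ (idx (Φ x))).isOpen.mem_nhds (idx_ne _))]
      with c ⟨h1, h2⟩ h3
    have h4 : (Φ (φ c)).rep (idx (Φ x)) ≠ 0 := h3
    rw [h2] at h4
    simp only [Function.comp_apply, h2, (aff_mk h1 _).2]
    exact funext fun j => mul_div_cancel₀ _ ((aff_mk h1 _).1.1 h4)
  obtain ⟨h1, h2⟩ := hev.self_of_nhds
  rw [h2, mk_aff (idx_ne (Φ x)), eq_comm]
  exact (Projectivization.mk_eq_mk_iff' ℂ _ _ _ _).2 ⟨_, e1⟩

theorem lift59_hol {n N : ℕ} {X : Type} [TopologicalSpace X] [ChartedSpace (Cm n) X]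
    [IsManifold 𝓘(ℂ, Cm n) ω X] {Φ : X → PN N} (hΦ : IsProjectiveImmersion (Cm n) Φ)
    {S : Type} [TopologicalSpace S] [ChartedSpace (Cm 1) S] {φ : S → X} {p : S}
    {s : S → Fin (N + 1) → ℂ} (hs : An s p)
    (hev : ∀ᶠ c in 𝓝 p, ∃ h : s c ≠ 0, Φ (φ c) = Projectivization.mk ℂ (s c) h)
    (hc : ContinuousAt φ p) : ContMDiffAt 𝓘(ℂ, Cm 1) 𝓘(ℂ, Cm n) ω φ p := by
  obtain ⟨i, hi⟩ : ∃ i, (Φ (φ p)).rep i ≠ 0 := ⟨_, idx_ne _⟩
  obtain ⟨k, k1, k2⟩ := lift59_inv hΦ (at_chart (φ p)) hi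
  obtain ⟨h1, h2⟩ := hev.self_of_nhds
  have hi' : s p i ≠ 0 := (aff_mk h1 _).1.1 (h2 ▸ hi)
  refine contMDiffAt_iff.2 ⟨hc, ?_⟩
  simp only [mfld_simps, contDiffWithinAt_univ]
  have hp : p ∈ (chartAt (Cm 1) p).source := mem_chart_source _ p
  have a1 : AnalyticAt ℂ (fun t j => s ((chartAt (Cm 1) p).symm t) j /
      s ((chartAt (Cm 1) p).symm t) i) (chartAt (Cm 1) p p) :=
    analyticAt_pi_iff.2 fun j => (hs.app j _ (at_chart p)).div (hs.app _ _ (at_chart p))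
      (by rwa [(chartAt (Cm 1) p).left_inv hp])
  have a2 := k1.comp_of_eq a1 (by rw [(chartAt (Cm 1) p).left_inv hp, h2, (aff_mk h1 _).2])
  have a3 : ∀ᶠ c in 𝓝 p, k (fun j => s c j / s c i) = chartAt (Cm n) (φ p) (φ c) := by
    filter_upwards [hev, hc.eventually k2] with c ⟨h3, h4⟩ h5
    rwa [h4, (aff_mk h3 _).2] at h5
  exact (a2.congr (((chartAt (Cm 1) p).tendsto_symm hp).eventually a3)).contDiffAt

theorem lift59 : LIFT := by
  intro n N K Z X _ _ _ _ _ Φ C S _ _ _ _ _ Θ f _ hA hΘ hf hCZ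
  have hC : ∀ c, Θ c ∈ C := fun c => hΘ.2.2 ▸ ⟨c, rfl⟩
  have hex : ∀ c, ∃ x, Φ x = f (Θ c) := fun c => Set.mem_range.1 (hA.2.2.symm ▸ hCZ (hC c))
  choose φ hφ using hex
  refine ⟨φ, fun p => ?_, hφ⟩
  obtain ⟨F, d, hF, h0, hFf⟩ := hf _ (hC p)
  have LΘ := lift_aff hΘ.2.1 (idx (Θ p))
  have aΘ : An (fun c => aff (idx (Θ p)) (Θ c)) p := fun c hc =>
    (LΘ.holo p (idx_ne _) c hc).analyticAt
  obtain ⟨s, hs, hv⟩ : ∃ s : S → Fin (N + 1) → ℂ, An s p ∧ ∀ c, (Θ c).rep (idx (Θ p)) ≠ 0 →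
      val F (Θ c) = (Θ c).rep (idx (Θ p)) ^ d • s c := by
    refine ⟨fun c a => eval (aff (idx (Θ p)) (Θ c)) (F a), An.pi fun a => aΘ.eval (F a),
      fun c h => funext fun a => ?_⟩
    rw [Pi.smul_apply, smul_eq_mul, ← eval_aff (hF a) h]
    rfl
  have hs0 : s p ≠ 0 := fun h => h0 (by rw [hv p (idx_ne _), h, smul_zero])
  have hev : ∀ᶠ c in 𝓝 p, ∃ h : s c ≠ 0, Φ (φ c) = Projectivization.mk ℂ (s c) h := by
    filter_upwards [hs.cont.eventually_ne hs0, LΘ.isOpen.mem_nhds (idx_ne (Θ p))] with c h1 h2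
    replace h2 : (Θ c).rep (idx (Θ p)) ≠ 0 := h2
    have h3 : val F (Θ c) ≠ 0 := by
      rw [hv c h2]
      exact smul_ne_zero (pow_ne_zero _ h2) h1
    refine ⟨h1, ?_⟩
    rw [hφ c, hFf _ (hC c) h3, Projectivization.mk_eq_mk_iff']
    exact ⟨_, (hv c h2).symm⟩
  exact lift59_hol hA.2.1 hs hev (lift59_cont hA.2.1 hs hev hA.1)

end Vale.Agent.P280A

end
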